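import Vale.Agent.P273.H828.TubeDefs

/-!
# P273, row ANN-A: the scaling tube (change of the size of a torus at the theta configuration)
-/

noncomputable section

namespace Vale.Agent.P273.H931

open Set MeasureTheory Filter Topology
open Vale.Agent.P273.H401 Vale.Agent.P273.H681 Vale.Agent.P273.H828

/-- the left point of the pair `c` -/
def kk (c : Fin 3) : Fin 5 := ![0, 2, 4] c

/-- the size at time `t` -/
def mu (r t : ℝ) : ℝ := r + t * (1 - r)

theorem mu_mem {r t : ℝ} (hr : r ∈ Ioc (0 : ℝ) 1) (ht : t ∈ Icc (0 : ℝ) 1) :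
    mu r t ∈ Ioc (0 : ℝ) 1 := by
  unfold mu
  refine ⟨?_, ?_⟩
  · nlinarith [hr.1, hr.2, ht.1, ht.2]
  · nlinarith [hr.1, hr.2, ht.1, ht.2]

/-- the configuration with the points of the pair `c` at its centre -/
def bA (r : ℝ) (c : Fin 3) (t : ℝ) : C6 := th fun i => if i = c then 0 else ((mu r t : ℝ) : ℂ) / 2

/-- the half difference of the pair `c` -/
def SA (r : ℝ) (x : Fin 3 → ℝ) : ℂ := ((mu r (x 2) : ℝ) : ℂ) / 2 * zz (x 0) (x 1)

theorem pr_bA (r : ℝ) (c : Fin 3) (t : ℝ) (d : ℂ) :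
    pr (kk c) (bA r c t) (bA r c t (kk c).castSucc) d =
      th fun i => if i = c then d else ((mu r t : ℝ) : ℂ) / 2 := by
  funext j
  fin_cases c <;> fin_cases j <;> simp [pr, bA, th, kk]

theorem bA_pair (r : ℝ) (c : Fin 3) (t : ℝ) : bA r c t (kk c).castSucc = bA r c t (kk c).succ := by
  fin_cases c <;> simp [bA, th, kk]

theorem bA_re (r : ℝ) (c : Fin 3) (t : ℝ) (j : Fin 6) :
    (bA r c t j).re = ![3 / 2 - (if 0 = c then 0 else mu r t / 2), 3 / 2 + (if 0 = c then 0 else mu r t / 2),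
      7 / 2 - (if 1 = c then 0 else mu r t / 2), 7 / 2 + (if 1 = c then 0 else mu r t / 2),
      11 / 2 - (if 2 = c then 0 else mu r t / 2), 11 / 2 + (if 2 = c then 0 else mu r t / 2)] j := by
  have h : ∀ m : ℝ, ((m : ℂ) / 2).re = m / 2 := fun m => by simp
  fin_cases c <;> fin_cases j <;> simp [bA, th]

theorem bA_sep {r t : ℝ} (hr : r ∈ Ioc (0 : ℝ) 1) (ht : t ∈ Icc (0 : ℝ) 1) (c : Fin 3) (i j : Fin 6)
    (hij : i < j) (hne : i ≠ (kk c).castSucc ∨ j ≠ (kk c).succ) :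
    (bA r c t i).re < (bA r c t j).re := by
  have h := mu_mem hr ht
  rw [bA_re, bA_re]
  fin_cases c <;> fin_cases i <;> fin_cases j <;> simp [kk] at hij hne ⊢ <;>
    first | exact h.1 | linarith [h.1, h.2]

theorem bA_XD {r t : ℝ} (hr : r ∈ Ioc (0 : ℝ) 1) (ht : t ∈ Icc (0 : ℝ) 1) (c : Fin 3) :
    bA r c t ∈ XD (kk c) :=
  ⟨bA_pair r c t, fun i j hij hne h => absurd h (bA_sep hr ht c i j hij hne).ne⟩

theorem bA_dist {r t : ℝ} (hr : r ∈ Ioc (0 : ℝ) 1) (ht : t ∈ Icc (0 : ℝ) 1) (c : Fin 3) (j : Fin 6)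
    (h1 : j ≠ (kk c).castSucc) (h2 : j ≠ (kk c).succ) :
    1 ≤ |(bA r c t j).re - (bA r c t (kk c).castSucc).re| := by
  have h := mu_mem hr ht
  rw [bA_re, bA_re, le_abs]
  fin_cases c <;> fin_cases j <;> simp [kk] at h1 h2 ⊢ <;>
    first | (left; linarith [h.1, h.2]) | (right; linarith [h.1, h.2])

theorem contDiff_th {E : Type*} [NormedAddCommGroup E] [NormedSpace ℝ E] {n : WithTop ℕ∞}
    {d : E → Fin 3 → ℂ} (h : ∀ i, ContDiff ℝ n fun x => d x i) :
    ContDiff ℝ n fun x => th (d x) := by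
  refine contDiff_pi.2 fun j => ?_
  fin_cases j
  · exact contDiff_const.sub (h 0)
  · exact contDiff_const.add (h 0)
  · exact contDiff_const.sub (h 1)
  · exact contDiff_const.add (h 1)
  · exact contDiff_const.sub (h 2)
  · exact contDiff_const.add (h 2)

theorem contDiff_mu {E : Type*} [NormedAddCommGroup E] [NormedSpace ℝ E] {n : WithTop ℕ∞}
    (r : ℝ) {f : E → ℝ} (hf : ContDiff ℝ n f) :
    ContDiff ℝ n fun x => ((mu r (f x) : ℝ) : ℂ) / 2 := by
  have h1 : ContDiff ℝ n fun x => mu r (f x) := by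
    unfold mu
    exact contDiff_const.add (hf.mul contDiff_const)
  exact (Complex.ofRealCLM.contDiff.comp h1).div_const 2

theorem contDiff_zz {E : Type*} [NormedAddCommGroup E] [NormedSpace ℝ E] {n : WithTop ℕ∞}
    {f g : E → ℝ} (hf : ContDiff ℝ n f) (hg : ContDiff ℝ n g) :
    ContDiff ℝ n fun x => zz (f x) (g x) := by
  unfold zz
  refine ContDiff.cexp ?_
  refine (Complex.ofRealCLM.contDiff.comp hf).neg.sub ?_
  exact (contDiff_const.mul (Complex.ofRealCLM.contDiff.comp hg)).mul contDiff_const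

theorem zz_one (l : ℝ) : zz l 1 = -zz l 0 := by
  unfold zz
  rw [Complex.ofReal_one, Complex.ofReal_zero, mul_one, mul_zero, zero_mul, sub_zero,
    Complex.exp_sub, Complex.exp_pi_mul_I]
  ring

theorem abs_re_SA {r : ℝ} (hr : r ∈ Ioc (0 : ℝ) 1) {l s t : ℝ} (hl : 0 ≤ l)
    (ht : t ∈ Icc (0 : ℝ) 1) : |(((mu r t : ℝ) : ℂ) / 2 * zz l s).re| ≤ 1 / 2 := by
  have h := mu_mem hr ht
  have e : ((mu r t : ℝ) : ℂ) / 2 = ((mu r t / 2 : ℝ) : ℂ) := by push_cast; rfl
  rw [e, Complex.re_ofReal_mul, zz_re, abs_mul, abs_mul, abs_of_pos (half_pos h.1),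
    abs_of_pos (Real.exp_pos _)]
  have h1 : Real.exp (-l) ≤ 1 := Real.exp_le_one_iff.2 (by linarith)
  have h2 := Real.abs_cos_le_one (Real.pi * s)
  have h3 : Real.exp (-l) * |Real.cos (Real.pi * s)| ≤ 1 := by
    calc Real.exp (-l) * |Real.cos (Real.pi * s)| ≤ 1 * 1 :=
          mul_le_mul h1 h2 (abs_nonneg _) zero_le_one
      _ = 1 := one_mul 1
  nlinarith [h.1, h.2, mul_nonneg (Real.exp_pos (-l)).le (abs_nonneg (Real.cos (Real.pi * s)))]

/-- **the scaling tube** -/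
def tubeA {r : ℝ} (hr : r ∈ Ioc (0 : ℝ) 1) (c : Fin 3) : Tube (kk c) where
  b := bA r c
  S := SA r
  ρ t := mu r t / 2
  l₁ := -1
  hb := by
    refine contDiff_th fun i => ?_
    by_cases h : i = c
    · simp only [h, if_true]
      exact contDiff_const
    · simp only [h, if_false]
      exact contDiff_mu r contDiff_id
  hS := (contDiff_mu r (contDiff_apply ℝ ℝ 2)).mul
    (contDiff_zz (contDiff_apply ℝ ℝ 0) (contDiff_apply ℝ ℝ 1))
  hρ := by
    unfold mu
    exact ((contDiff_const.add (contDiff_id.mul contDiff_const))).div_const 2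
  hρ0 t ht := half_pos (mu_mem hr ht).1
  hfar x _ := by
    unfold SA
    push_cast
    rfl
  hflip l t _ _ := by
    show ((mu r t : ℝ) : ℂ) / 2 * zz l 1 = -(((mu r t : ℝ) : ℂ) / 2 * zz l 0)
    rw [zz_one]
    ring
  hpos l t _ ht := by
    show 0 < (((mu r t : ℝ) : ℂ) / 2 * zz l 0).re
    have e : ((mu r t : ℝ) : ℂ) / 2 = ((mu r t / 2 : ℝ) : ℂ) := by push_cast; rfl
    rw [e, Complex.re_ofReal_mul, zz_re, mul_zero, Real.cos_zero, mul_one]
    exact mul_pos (half_pos (mu_mem hr ht).1) (Real.exp_pos _)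
  hXD t ht := bA_XD hr ht c
  hXX l s t hl hs ht := by
    have e : ((mu r t : ℝ) : ℂ) / 2 = ((mu r t / 2 : ℝ) : ℂ) := by push_cast; rfl
    refine pr_mem (bA_XD hr ht c) ?_ ?_
    · show (((mu r t : ℝ) : ℂ) / 2 * zz l s).re = 0 → (((mu r t : ℝ) : ℂ) / 2 * zz l s).im < 0
      rw [e]
      exact zz_neg (half_pos (mu_mem hr ht).1) hs
    · intro j h1 h2
      have := abs_re_SA (s := s) hr hl ht
      have h3 := bA_dist hr ht c j h1 h2
      calc |(SA r ![l, s, t]).re| ≤ 1 / 2 := this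
        _ < 1 := by norm_num
        _ ≤ _ := h3

variable {V F : Type*} [AddCommGroup V] [Module ℝ V] [NormedAddCommGroup F] [NormedSpace ℝ F]

theorem tubeA_R {r : ℝ} (hr : r ∈ Ioc (0 : ℝ) 1) (c : Fin 3) (x : Fin 3 → ℝ) :
    (tubeA hr c).R x = th fun i => ((mu r (x 2) : ℝ) : ℂ) / 2 *
      (if i = c then zz (x 0) (x 1) else 1) := by
  show pr (kk c) (bA r c (x 2)) (bA r c (x 2) (kk c).castSucc) (SA r x) = _
  rw [pr_bA]
  congr 1
  funext i
  by_cases h : i = c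
  · rw [if_pos h, if_pos h]; rfl
  · rw [if_neg h, if_neg h, mul_one]

theorem tubeA_A {r : ℝ} (hr : r ∈ Ioc (0 : ℝ) 1) (c : Fin 3) (D : Loc2 V F) (v : V) (t : ℝ) :
    (tubeA hr c).A D v t = ANN D (mu r t) c v := by
  unfold Tube.A ANN
  have e : (fun y : Fin 2 → ℝ => (tubeA hr c).R ![y 0, y 1, t]) = annF (mu r t) c := by
    funext y
    rw [tubeA_R]
    rfl
  rw [e]

/-- **Row ANN-A.** The part of the torus where the size changes is the difference of the annuli. -/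
theorem scaling {D : Loc2 V F} (hT : TubeProp D) {r : ℝ} (hr : r ∈ Ioc (0 : ℝ) 1) (c : Fin 3) {v : V}
    (hv : D.s (![0, 2, 4] c) v = v) :
    cubeInt (pb (fun y : Fin 2 → ℝ => th fun i => ((r + y 1 * (1 - r) : ℝ) : ℂ) / 2 *
      (if i = c then zz 0 (y 0) else 1)) (D.Phi v)) = ANN D 1 c v - ANN D r c v := by
  have h := hT (kk c) v hv (tubeA hr c)
  rw [tubeA_A, tubeA_A] at h
  have e1 : mu r 1 = 1 := by unfold mu; ring
  have e0 : mu r 0 = r := by unfold mu; ring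
  rw [e1, e0] at h
  rw [← h]
  congr 2
  funext y
  rw [tubeA_R]
  rfl

/-- The same with the cast inside. -/
theorem scaling' {D : Loc2 V F} (hT : TubeProp D) {r : ℝ} (hr : r ∈ Ioc (0 : ℝ) 1) (c : Fin 3)
    {v : V} (hv : D.s (![0, 2, 4] c) v = v) :
    cubeInt (pb (fun y : Fin 2 → ℝ => th fun i => ((r : ℂ) + y 1 * (1 - r)) / 2 *
      (if i = c then zz 0 (y 0) else 1)) (D.Phi v)) = ANN D 1 c v - ANN D r c v := by
  rw [← scaling hT hr c hv]
  congr 2
  funext y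
  push_cast
  rfl

end Vale.Agent.P273.H931

end
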