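import Vale.Agent.P273.H857.Stm

/-!
Row GP-INV: the integral along an admissible path converges and does not depend on the path.
-/

open Complex Set Filter Topology MeasureTheory
open scoped ContDiff

namespace Vale.Agent.P273.H931

open H857

noncomputable section

/-- the integrand, without the derivative of the path -/
def ff (k : ℕ) (B : Finset (Fin 6)) (b : C6) (z : ℂ) : ℂ := z ^ k / H857.sq B b z

theorem norm_sqB (B : Finset (Fin 6)) (b : C6) (z : ℂ) :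
    ‖H857.sq B b z‖ = ∏ l, Real.sqrt ‖z - b l‖ := by
  unfold H857.sq
  rw [norm_prod]
  exact Finset.prod_congr rfl fun l _ => norm_br B l _

theorem analyticAt_ff {k : ℕ} {B : Finset (Fin 6)} {b : C6} {z : ℂ} (hz : z ∈ Dm B b) :
    AnalyticAt ℂ (ff k B b) z := by
  have h1 : AnalyticAt ℂ (fun w => H857.sq B b w) z := by
    unfold H857.sq
    refine Finset.analyticAt_fun_prod _ fun l _ => ?_
    exact (analyticAt_br (hz l)).comp_of_eq (analyticAt_id.sub analyticAt_const) rfl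
  exact (analyticAt_id.pow k).div h1 (sq_ne_zero fun l h => Sb_ne_zero (hz l) (sub_eq_zero.2 h))

theorem igd_eq (k : ℕ) (B : Finset (Fin 6)) (b : C6) (x : ℂ) (g : ℝ → ℝ) (t : ℝ) :
    igd k B b x g t = ff k B b (gam x g t) * (1 + deriv g t * I) := rfl

/-- linear growth of a path -/
theorem path_le {g : ℝ → ℝ} (hg : IsPath g) :
    ∃ K ≥ (0 : ℝ), (∀ t, |deriv g t| ≤ K) ∧ ∀ t ≥ (0 : ℝ), |g t| ≤ K * t := by
  obtain ⟨K, hK⟩ := hg.bdd
  refine ⟨K, (abs_nonneg _).trans (hK 0), hK, fun t ht => ?_⟩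
  have h := convex_univ.norm_image_sub_le_of_norm_deriv_le (f := g) (C := K) (x := 0) (y := t)
    (fun u _ => (hg.smooth.differentiable (by simp)) u) (fun u _ => hK u) (mem_univ _)
    (mem_univ _)
  rw [hg.zero, sub_zero, sub_zero, Real.norm_eq_abs, Real.norm_eq_abs, abs_of_nonneg ht] at h
  exact h

theorem exists_sep (b : C6) (x : ℂ) : ∃ c > (0 : ℝ), ∀ l, b l ≠ x → c ≤ ‖x - b l‖ := by
  obtain ⟨l₀, h⟩ := Finite.exists_min fun l => if b l = x then (1 : ℝ) else ‖x - b l‖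
  refine ⟨if b l₀ = x then (1 : ℝ) else ‖x - b l₀‖, ?_, fun l hl => ?_⟩
  · split_ifs with h1
    · exact one_pos
    · exact norm_pos_iff.2 (sub_ne_zero.2 (Ne.symm h1))
  · have := h l
    rwa [if_neg hl] at this

/-- bound near the starting point -/
theorem small {b : C6} (hb : Function.Injective b) (x : ℂ) {K : ℝ} (hK : 0 ≤ K) (k : ℕ)
    (B : Finset (Fin 6)) : ∃ δ > (0 : ℝ), δ ≤ 1 ∧ ∃ C ≥ (0 : ℝ), ∀ t ∈ Ioc 0 δ, ∀ y : ℝ,
      |y| ≤ K * t → ‖ff k B b (x + (t + y * I))‖ ≤ C / Real.sqrt t := by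
  obtain ⟨c0, hc0, hc⟩ := exists_sep b x
  set c : ℝ := min 1 (c0 / 2) with hcdef
  have hcpos : 0 < c := lt_min one_pos (half_pos hc0)
  have hc1 : c ≤ 1 := min_le_left _ _
  have hc2 : c ≤ c0 / 2 := min_le_right _ _
  have h1K : 0 < 1 + K := by linarith
  refine ⟨min 1 (c / (1 + K)), lt_min one_pos (div_pos hcpos h1K), min_le_left _ _,
    (‖x‖ + 1) ^ k / Real.sqrt c ^ 6, by positivity, fun t ht y hy => ?_⟩
  have ht0 : 0 < t := ht.1
  have ht1 : t ≤ 1 := ht.2.trans (min_le_left _ _)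
  have ht2 : (1 + K) * t ≤ c := by
    have := ht.2.trans (min_le_right _ _)
    rw [le_div_iff₀ h1K] at this
    linarith
  have hn : ‖(t : ℂ) + y * I‖ ≤ c := by
    calc ‖(t : ℂ) + y * I‖ ≤ ‖(t : ℂ)‖ + ‖(y : ℂ) * I‖ := norm_add_le _ _
      _ = t + |y| := by
        rw [norm_mul, norm_I, mul_one, Complex.norm_real, Complex.norm_real, Real.norm_eq_abs,
          Real.norm_eq_abs, abs_of_pos ht0]
      _ ≤ t + K * t := by linarith
      _ = (1 + K) * t := by ring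
      _ ≤ c := ht2
  have hlow : ∀ l, b l ≠ x → Real.sqrt c ≤ Real.sqrt ‖x + (t + y * I) - b l‖ := by
    intro l hl
    refine Real.sqrt_le_sqrt ?_
    have h1 := hc l hl
    have h2 : ‖x - b l‖ ≤ ‖x + (t + y * I) - b l‖ + ‖(t : ℂ) + y * I‖ := by
      calc ‖x - b l‖ = ‖(x + (t + y * I) - b l) - (t + y * I)‖ := by congr 1; ring
        _ ≤ _ := norm_sub_le _ _
    linarith
  have hst : Real.sqrt t ≤ 1 := Real.sqrt_le_one.2 ht1
  have hsc : Real.sqrt c ≤ 1 := Real.sqrt_le_one.2 hc1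
  have hsc0 : 0 < Real.sqrt c := Real.sqrt_pos.2 hcpos
  have hst0 : 0 < Real.sqrt t := Real.sqrt_pos.2 ht0
  have hprod : Real.sqrt t * Real.sqrt c ^ 6 ≤ ‖H857.sq B b (x + (t + y * I))‖ := by
    rw [norm_sqB]
    by_cases hx : ∃ j, b j = x
    · obtain ⟨j, hj⟩ := hx
      rw [← Finset.mul_prod_erase _ _ (Finset.mem_univ j)]
      have e1 : Real.sqrt t ≤ Real.sqrt ‖x + (t + y * I) - b j‖ := by
        refine Real.sqrt_le_sqrt ?_
        rw [hj, add_sub_cancel_left]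
        have := Complex.abs_re_le_norm ((t : ℂ) + y * I)
        simp only [add_re, ofReal_re, mul_re, I_re, mul_zero, ofReal_im, I_im, mul_one, sub_self,
          add_zero] at this
        exact (le_abs_self t).trans this
      have e2 : Real.sqrt c ^ 6 ≤
          ∏ l ∈ Finset.univ.erase j, Real.sqrt ‖x + (t + y * I) - b l‖ := by
        calc Real.sqrt c ^ 6 ≤ Real.sqrt c ^ 5 := pow_le_pow_of_le_one hsc0.le hsc (by norm_num)
          _ = ∏ _l ∈ Finset.univ.erase j, Real.sqrt c := by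
            rw [Finset.prod_const, Finset.card_erase_of_mem (Finset.mem_univ j)]
            simp
          _ ≤ _ := Finset.prod_le_prod (fun _ _ => hsc0.le) fun l hl => hlow l fun h =>
            Finset.ne_of_mem_erase hl (hb (h.trans hj.symm))
      exact mul_le_mul e1 e2 (by positivity) (Real.sqrt_nonneg _)
    · push Not at hx
      calc Real.sqrt t * Real.sqrt c ^ 6 ≤ 1 * Real.sqrt c ^ 6 :=
            mul_le_mul_of_nonneg_right hst (by positivity)
        _ = ∏ _l : Fin 6, Real.sqrt c := by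
            rw [Finset.prod_const, one_mul]
            simp
        _ ≤ _ := Finset.prod_le_prod (fun _ _ => hsc0.le) fun l _ => hlow l (hx l)
  have hz : ‖x + (t + y * I)‖ ≤ ‖x‖ + 1 := by
    calc ‖x + (t + y * I)‖ ≤ ‖x‖ + ‖(t : ℂ) + y * I‖ := norm_add_le _ _
      _ ≤ ‖x‖ + 1 := by linarith
  unfold ff
  rw [norm_div, norm_pow]
  calc ‖x + (t + y * I)‖ ^ k / ‖H857.sq B b (x + (t + y * I))‖
      ≤ (‖x‖ + 1) ^ k / (Real.sqrt t * Real.sqrt c ^ 6) :=
        div_le_div₀ (by positivity) (pow_le_pow_left₀ (norm_nonneg _) hz k) (by positivity) hprod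
    _ = (‖x‖ + 1) ^ k / Real.sqrt c ^ 6 / Real.sqrt t := by
        field_simp

/-- bound near infinity -/
theorem large (b : C6) (x : ℂ) {K : ℝ} (hK : 0 ≤ K) {k : ℕ} (hk : k ≤ 1)
    (B : Finset (Fin 6)) : ∃ R ≥ (1 : ℝ), ∃ C ≥ (0 : ℝ), ∀ t ≥ R, ∀ y : ℝ,
      |y| ≤ K * t → ‖ff k B b (x + (t + y * I))‖ ≤ C / t ^ 2 := by
  set M : ℝ := ∑ l, |x.re - (b l).re| with hM
  have hM0 : 0 ≤ M := Finset.sum_nonneg fun _ _ => abs_nonneg _
  refine ⟨1 + 2 * M, by linarith, 8 * (‖x‖ + 1 + K), by positivity, fun t ht y hy => ?_⟩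
  have ht1 : 1 ≤ t := by linarith
  have ht0 : 0 < t := by linarith
  have hlow : ∀ l, Real.sqrt (t / 2) ≤ Real.sqrt ‖x + (t + y * I) - b l‖ := by
    intro l
    refine Real.sqrt_le_sqrt ?_
    have h1 := Complex.abs_re_le_norm (x + ((t : ℂ) + y * I) - b l)
    simp only [sub_re, add_re, ofReal_re, mul_re, I_re, mul_zero, ofReal_im, I_im, mul_one,
      sub_self, add_zero] at h1
    have h2 : |x.re - (b l).re| ≤ M :=
      Finset.single_le_sum (f := fun l => |x.re - (b l).re|) (fun _ _ => abs_nonneg _)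
        (Finset.mem_univ l)
    have h3 := neg_abs_le (x.re - (b l).re)
    have h4 := le_abs_self (x.re + t - (b l).re)
    linarith
  have hs0 : 0 < Real.sqrt (t / 2) := Real.sqrt_pos.2 (half_pos ht0)
  have hprod : (t / 2) ^ 3 ≤ ‖H857.sq B b (x + (t + y * I))‖ := by
    rw [norm_sqB]
    calc (t / 2) ^ 3 = Real.sqrt (t / 2) ^ 6 := by
          rw [show (6 : ℕ) = 2 * 3 from rfl, pow_mul, Real.sq_sqrt (half_pos ht0).le]
      _ = ∏ _l : Fin 6, Real.sqrt (t / 2) := by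
          rw [Finset.prod_const]
          simp
      _ ≤ _ := Finset.prod_le_prod (fun _ _ => hs0.le) fun l _ => hlow l
  have hz : ‖x + (t + y * I)‖ ≤ (‖x‖ + 1 + K) * t := by
    calc ‖x + (t + y * I)‖ ≤ ‖x‖ + (‖(t : ℂ)‖ + ‖(y : ℂ) * I‖) :=
          (norm_add_le _ _).trans (by gcongr; exact norm_add_le _ _)
      _ = ‖x‖ + (t + |y|) := by
        rw [norm_mul, norm_I, mul_one, Complex.norm_real, Complex.norm_real, Real.norm_eq_abs,
          Real.norm_eq_abs, abs_of_pos ht0]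
      _ ≤ ‖x‖ * t + (t + K * t) := by
        have := mul_le_mul_of_nonneg_left ht1 (norm_nonneg x)
        linarith
      _ = (‖x‖ + 1 + K) * t := by ring
  have hpow : ‖x + (t + y * I)‖ ^ k ≤ (‖x‖ + 1 + K) * t := by
    have h1 : k = 0 ∨ k = 1 := by omega
    rcases h1 with rfl | rfl
    · rw [pow_zero]
      have : (1 : ℝ) ≤ ‖x‖ + 1 + K := by
        have := norm_nonneg x
        linarith
      nlinarith
    · rwa [pow_one]
  unfold ff
  rw [norm_div, norm_pow]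
  calc ‖x + (t + y * I)‖ ^ k / ‖H857.sq B b (x + (t + y * I))‖
      ≤ ((‖x‖ + 1 + K) * t) / (t / 2) ^ 3 :=
        div_le_div₀ (by positivity) hpow (by positivity) hprod
    _ = 8 * (‖x‖ + 1 + K) / t ^ 2 := by
        field_simp
        ring

/-! ### integrability -/

theorem continuous_gam {x : ℂ} {g : ℝ → ℝ} (hg : IsPath g) : Continuous (gam x g) := by
  unfold gam
  have := hg.smooth.continuous
  fun_prop

theorem continuous_deriv_path {g : ℝ → ℝ} (hg : IsPath g) : Continuous (deriv g) :=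
  hg.smooth.continuous_deriv (by simp)

theorem continuousOn_igd {k : ℕ} {B : Finset (Fin 6)} {b : C6} {x : ℂ} {g : ℝ → ℝ}
    (h : Adm B b x g) : ContinuousOn (igd k B b x g) (Ioi 0) := by
  intro t ht
  refine ContinuousAt.continuousWithinAt ?_
  have h1 : ContinuousAt (fun t => ff k B b (gam x g t)) t :=
    ContinuousAt.comp (g := ff k B b) (f := gam x g) (analyticAt_ff (h.mem_Dm ht)).continuousAt
      (continuous_gam h.1).continuousAt
  have h2 : Continuous fun t => (1 : ℂ) + deriv g t * I := by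
    have := continuous_deriv_path h.1
    fun_prop
  exact h1.mul h2.continuousAt

theorem norm_tangent_le {g : ℝ → ℝ} {K : ℝ} (hK : ∀ t, |deriv g t| ≤ K) (t : ℝ) :
    ‖(1 : ℂ) + deriv g t * I‖ ≤ 1 + K := by
  have h := norm_add_le (1 : ℂ) (((deriv g t : ℝ) : ℂ) * I)
  rw [norm_one, norm_mul, norm_I, mul_one, Complex.norm_real, Real.norm_eq_abs] at h
  exact h.trans (by linarith [hK t])

theorem integrableOn_inv_sqrt (δ : ℝ) : IntegrableOn (fun t => 1 / Real.sqrt t) (Ioc 0 δ) := by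
  rcases le_total δ 0 with h | h
  · rw [Ioc_eq_empty (not_lt.2 h)]
    exact integrableOn_empty
  · have h1 := (intervalIntegral.intervalIntegrable_rpow' (a := 0) (b := δ)
      (r := -(1 / 2)) (by norm_num)).1
    refine h1.congr_fun (fun t ht => ?_) measurableSet_Ioc
    show t ^ (-(1 / 2) : ℝ) = 1 / Real.sqrt t
    rw [Real.rpow_neg ht.1.le, ← Real.sqrt_eq_rpow, one_div]

theorem integrableOn_inv_sq {R : ℝ} (hR : 0 < R) : IntegrableOn (fun t => 1 / t ^ 2) (Ioi R) := by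
  have h1 := integrableOn_Ioi_rpow_of_lt (a := -2) (by norm_num) hR
  refine h1.congr_fun (fun t ht => ?_) measurableSet_Ioi
  have ht0 : 0 < t := hR.trans ht
  show t ^ (-2 : ℝ) = 1 / t ^ 2
  rw [Real.rpow_neg ht0.le, one_div]
  congr 1
  exact_mod_cast Real.rpow_natCast t 2

theorem integrableOn_igd {k : ℕ} (hk : k ≤ 1) {B : Finset (Fin 6)} {b : C6}
    (hb : Function.Injective b) {x : ℂ} {g : ℝ → ℝ} (h : Adm B b x g) :
    IntegrableOn (igd k B b x g) (Ioi 0) := by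
  obtain ⟨K, hK, hd, hg⟩ := path_le h.1
  obtain ⟨δ, hδ, hδ1, C, hC, hs⟩ := small hb x hK k B
  obtain ⟨R, hR, C', hC', hl⟩ := large b x hK hk B
  have hc := continuousOn_igd (k := k) h
  have hsplit : Ioi (0 : ℝ) ⊆ Ioc 0 δ ∪ Icc δ R ∪ Ioi R := by
    intro t ht
    rcases le_total t δ with h1 | h1
    · exact Or.inl (Or.inl ⟨ht, h1⟩)
    · rcases le_or_gt t R with h2 | h2
      · exact Or.inl (Or.inr ⟨h1, h2⟩)
      · exact Or.inr h2
  refine IntegrableOn.mono_set ((IntegrableOn.union ?_ ?_).union ?_) hsplit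
  · refine Integrable.mono' (((integrableOn_inv_sqrt δ).const_mul (C * (1 + K)))) ?_ ?_
    · exact (hc.mono fun t ht => ht.1).aestronglyMeasurable measurableSet_Ioc
    · refine (ae_restrict_iff' measurableSet_Ioc).2 (ae_of_all _ fun t ht => ?_)
      rw [igd_eq, norm_mul]
      have h1 : ‖ff k B b (gam x g t)‖ ≤ C / Real.sqrt t := hs t ht (g t) (hg t ht.1.le)
      calc ‖ff k B b (gam x g t)‖ * ‖(1 : ℂ) + deriv g t * I‖ ≤ C / Real.sqrt t * (1 + K) :=
            mul_le_mul h1 (norm_tangent_le hd t) (norm_nonneg _)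
              (div_nonneg hC (Real.sqrt_nonneg _))
        _ = C * (1 + K) * (1 / Real.sqrt t) := by ring
  · exact (hc.mono fun t ht => hδ.trans_le ht.1).integrableOn_compact isCompact_Icc
  · have hR0 : 0 < R := by linarith
    refine Integrable.mono' (((integrableOn_inv_sq hR0).const_mul (C' * (1 + K)))) ?_ ?_
    · exact (hc.mono fun t ht => hR0.trans ht).aestronglyMeasurable measurableSet_Ioi
    · refine (ae_restrict_iff' measurableSet_Ioi).2 (ae_of_all _ fun t ht => ?_)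
      rw [igd_eq, norm_mul]
      have ht0 : (0 : ℝ) ≤ t := (hR0.trans ht).le
      have h1 : ‖ff k B b (gam x g t)‖ ≤ C' / t ^ 2 := hl t (le_of_lt ht) (g t) (hg t ht0)
      calc ‖ff k B b (gam x g t)‖ * ‖(1 : ℂ) + deriv g t * I‖ ≤ C' / t ^ 2 * (1 + K) :=
            mul_le_mul h1 (norm_tangent_le hd t) (norm_nonneg _)
              (div_nonneg hC' (_root_.sq_nonneg t))
        _ = C' * (1 + K) * (1 / t ^ 2) := by ring

/-! ### independence of the path -/

section Homotopy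

variable {k : ℕ} {B : Finset (Fin 6)} {b : C6} {x : ℂ} {g₀ g₁ : ℝ → ℝ}

/-- the homotopy -/
def ph (x : ℂ) (g₀ g₁ : ℝ → ℝ) (p : ℝ × ℝ) : ℂ :=
  x + ((p.2 : ℂ) + (((1 - p.1) * g₀ p.2 + p.1 * g₁ p.2 : ℝ) : ℂ) * I)

/-- the derivative of the homotopy in the second variable -/
def ps (g₀ g₁ : ℝ → ℝ) (p : ℝ × ℝ) : ℂ :=
  1 + (((1 - p.1) * deriv g₀ p.2 + p.1 * deriv g₁ p.2 : ℝ) : ℂ) * I

/-- the derivative of the homotopy in the first variable -/
def hs (g₀ g₁ : ℝ → ℝ) (p : ℝ × ℝ) : ℂ := ((g₁ p.2 - g₀ p.2 : ℝ) : ℂ) * I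

theorem ph_mem (h0 : Adm B b x g₀) (h1 : Adm B b x g₁) {p : ℝ × ℝ} (hp : p.1 ∈ Icc (0 : ℝ) 1)
    (ht : 0 < p.2) : ph x g₀ g₁ p ∈ Dm B b := (h0.convex h1 hp.1 hp.2).mem_Dm ht

theorem smooth_deriv {g : ℝ → ℝ} (hg : IsPath g) : ContDiff ℝ ∞ (deriv g) :=
  (contDiff_infty_iff_deriv.1 hg.smooth).2

theorem diff_real {f : ℝ × ℝ → ℝ} {p : ℝ × ℝ} (hf : DifferentiableAt ℝ f p) :
    DifferentiableAt ℝ (fun p => ((f p : ℝ) : ℂ)) p :=
  (Complex.ofRealCLM.differentiableAt).comp p hf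

theorem diff_ph (h0 : IsPath g₀) (h1 : IsPath g₁) (p : ℝ × ℝ) :
    DifferentiableAt ℝ (ph x g₀ g₁) p := by
  have e0 : DifferentiableAt ℝ (fun p : ℝ × ℝ => g₀ p.2) p :=
    DifferentiableAt.comp (g := g₀) p (h0.smooth.differentiable (by simp) _) differentiableAt_snd
  have e1 : DifferentiableAt ℝ (fun p : ℝ × ℝ => g₁ p.2) p :=
    DifferentiableAt.comp (g := g₁) p (h1.smooth.differentiable (by simp) _) differentiableAt_snd
  unfold ph
  refine (DifferentiableAt.add (diff_real differentiableAt_snd) ?_).const_add x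
  refine (diff_real ?_).mul_const I
  exact (((differentiableAt_const (1 : ℝ)).sub differentiableAt_fst).mul e0).add
    (differentiableAt_fst.mul e1)

theorem diff_ps (h0 : IsPath g₀) (h1 : IsPath g₁) (p : ℝ × ℝ) :
    DifferentiableAt ℝ (ps g₀ g₁) p := by
  have e0 : DifferentiableAt ℝ (fun p : ℝ × ℝ => deriv g₀ p.2) p :=
    DifferentiableAt.comp (g := deriv g₀) p ((smooth_deriv h0).differentiable (by simp) _)
      differentiableAt_snd
  have e1 : DifferentiableAt ℝ (fun p : ℝ × ℝ => deriv g₁ p.2) p :=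
    DifferentiableAt.comp (g := deriv g₁) p ((smooth_deriv h1).differentiable (by simp) _)
      differentiableAt_snd
  unfold ps
  refine DifferentiableAt.const_add 1 ((diff_real ?_).mul_const I)
  exact (((differentiableAt_const (1 : ℝ)).sub differentiableAt_fst).mul e0).add
    (differentiableAt_fst.mul e1)

theorem diff_hs (h0 : IsPath g₀) (h1 : IsPath g₁) (p : ℝ × ℝ) :
    DifferentiableAt ℝ (hs g₀ g₁) p := by
  have e0 : DifferentiableAt ℝ (fun p : ℝ × ℝ => g₀ p.2) p :=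
    DifferentiableAt.comp (g := g₀) p (h0.smooth.differentiable (by simp) _) differentiableAt_snd
  have e1 : DifferentiableAt ℝ (fun p : ℝ × ℝ => g₁ p.2) p :=
    DifferentiableAt.comp (g := g₁) p (h1.smooth.differentiable (by simp) _) differentiableAt_snd
  unfold hs
  exact (diff_real (e1.sub e0)).mul_const I

/-- the first function -/
def uu (k : ℕ) (B : Finset (Fin 6)) (b : C6) (x : ℂ) (g₀ g₁ : ℝ → ℝ) (p : ℝ × ℝ) : ℂ :=
  ff k B b (ph x g₀ g₁ p) * ps g₀ g₁ p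

/-- the second function -/
def vv (k : ℕ) (B : Finset (Fin 6)) (b : C6) (x : ℂ) (g₀ g₁ : ℝ → ℝ) (p : ℝ × ℝ) : ℂ :=
  ff k B b (ph x g₀ g₁ p) * hs g₀ g₁ p

theorem diff_ffph (h0 : Adm B b x g₀) (h1 : Adm B b x g₁) {p : ℝ × ℝ} (hp : p.1 ∈ Icc (0 : ℝ) 1)
    (ht : 0 < p.2) : DifferentiableAt ℝ (fun p => ff k B b (ph x g₀ g₁ p)) p :=
  DifferentiableAt.comp (g := ff k B b) p
    ((analyticAt_ff (ph_mem h0 h1 hp ht)).differentiableAt.restrictScalars ℝ)
    (diff_ph h0.1 h1.1 p)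

theorem diff_uu (h0 : Adm B b x g₀) (h1 : Adm B b x g₁) {p : ℝ × ℝ} (hp : p.1 ∈ Icc (0 : ℝ) 1)
    (ht : 0 < p.2) : DifferentiableAt ℝ (uu k B b x g₀ g₁) p :=
  (diff_ffph h0 h1 hp ht).mul (diff_ps h0.1 h1.1 p)

theorem diff_vv (h0 : Adm B b x g₀) (h1 : Adm B b x g₁) {p : ℝ × ℝ} (hp : p.1 ∈ Icc (0 : ℝ) 1)
    (ht : 0 < p.2) : DifferentiableAt ℝ (vv k B b x g₀ g₁) p :=
  (diff_ffph h0 h1 hp ht).mul (diff_hs h0.1 h1.1 p)

theorem deriv_ph_fst (s t : ℝ) :
    HasDerivAt (fun s => ph x g₀ g₁ (s, t)) (hs g₀ g₁ (s, t)) s := by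
  have h1 : HasDerivAt (fun s : ℝ => (1 - s) * g₀ t + s * g₁ t) (g₁ t - g₀ t) s := by
    have e1 : HasDerivAt (fun s : ℝ => (1 - s) * g₀ t) ((0 - 1) * g₀ t) s :=
      ((hasDerivAt_const s (1 : ℝ)).sub (hasDerivAt_id s)).mul_const (g₀ t)
    have e2 : HasDerivAt (fun s : ℝ => s * g₁ t) (1 * g₁ t) s := (hasDerivAt_id s).mul_const (g₁ t)
    have e3 := e1.add e2
    have e4 : (0 - 1) * g₀ t + 1 * g₁ t = g₁ t - g₀ t := by ring
    rw [e4] at e3
    exact e3
  have h2 := (((h1.ofReal_comp).mul_const I).const_add (t : ℂ)).const_add x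
  exact h2

theorem deriv_ph_snd (h0 : IsPath g₀) (h1 : IsPath g₁) (s t : ℝ) :
    HasDerivAt (fun t => ph x g₀ g₁ (s, t)) (ps g₀ g₁ (s, t)) t := by
  have d0 : HasDerivAt g₀ (deriv g₀ t) t := (h0.smooth.differentiable (by simp) t).hasDerivAt
  have d1 : HasDerivAt g₁ (deriv g₁ t) t := (h1.smooth.differentiable (by simp) t).hasDerivAt
  have h2 : HasDerivAt (fun t : ℝ => (1 - s) * g₀ t + s * g₁ t)
      ((1 - s) * deriv g₀ t + s * deriv g₁ t) t := (d0.const_mul _).add (d1.const_mul _)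
  have h3 : HasDerivAt (fun t : ℝ => (t : ℂ)) 1 t := by
    have := (hasDerivAt_id t).ofReal_comp
    simpa using this
  have h4 := (h3.add ((h2.ofReal_comp).mul_const I)).const_add x
  exact h4

theorem deriv_eq (h0 : Adm B b x g₀) (h1 : Adm B b x g₁) {s t : ℝ} (hp : s ∈ Icc (0 : ℝ) 1)
    (ht : 0 < t) : fderiv ℝ (uu k B b x g₀ g₁) (s, t) (1, 0) =
      fderiv ℝ (vv k B b x g₀ g₁) (s, t) (0, 1) := by
  have hz : HasDerivAt (ff k B b) (deriv (ff k B b) (ph x g₀ g₁ (s, t))) (ph x g₀ g₁ (s, t)) :=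
    (analyticAt_ff (ph_mem (p := (s, t)) h0 h1 hp ht)).differentiableAt.hasDerivAt
  set D := deriv (ff k B b) (ph x g₀ g₁ (s, t)) with hD
  have d0 : HasDerivAt (deriv g₀) (deriv (deriv g₀) t) t :=
    ((smooth_deriv h0.1).differentiable (by simp) t).hasDerivAt
  have a1 : HasDerivAt (fun s => ff k B b (ph x g₀ g₁ (s, t))) (D * hs g₀ g₁ (s, t)) s :=
    HasDerivAt.comp (h₂ := ff k B b) s hz (deriv_ph_fst s t)
  have a2 : HasDerivAt (fun t => ff k B b (ph x g₀ g₁ (s, t))) (D * ps g₀ g₁ (s, t)) t :=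
    HasDerivAt.comp (h₂ := ff k B b) t hz (deriv_ph_snd h0.1 h1.1 s t)
  have b1 : HasDerivAt (fun s => ps g₀ g₁ (s, t))
      (((deriv g₁ t - deriv g₀ t : ℝ) : ℂ) * I) s := by
    have e1 : HasDerivAt (fun s : ℝ => (1 - s) * deriv g₀ t) ((0 - 1) * deriv g₀ t) s :=
      ((hasDerivAt_const s (1 : ℝ)).sub (hasDerivAt_id s)).mul_const _
    have e2 : HasDerivAt (fun s : ℝ => s * deriv g₁ t) (1 * deriv g₁ t) s :=
      (hasDerivAt_id s).mul_const _
    have e3 := e1.add e2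
    have e4 : (0 - 1) * deriv g₀ t + 1 * deriv g₁ t = deriv g₁ t - deriv g₀ t := by ring
    rw [e4] at e3
    exact ((e3.ofReal_comp).mul_const I).const_add 1
  have b2 : HasDerivAt (fun t => hs g₀ g₁ (s, t)) (((deriv g₁ t - deriv g₀ t : ℝ) : ℂ) * I) t := by
    have e0 : HasDerivAt g₀ (deriv g₀ t) t := (h0.1.smooth.differentiable (by simp) t).hasDerivAt
    have e1 : HasDerivAt g₁ (deriv g₁ t) t := (h1.1.smooth.differentiable (by simp) t).hasDerivAt
    exact ((e1.sub e0).ofReal_comp).mul_const I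
  have c1 := a1.mul b1
  have c2 := a2.mul b2
  have f1 : HasDerivAt (fun s => uu k B b x g₀ g₁ (s, t))
      (fderiv ℝ (uu k B b x g₀ g₁) (s, t) (1, 0)) s :=
    HasFDerivAt.comp_hasDerivAt (f := fun s => (s, t)) s
      (diff_uu (p := (s, t)) h0 h1 hp ht).hasFDerivAt
      ((hasDerivAt_id s).prodMk (hasDerivAt_const s t))
  have f2 : HasDerivAt (fun t => vv k B b x g₀ g₁ (s, t))
      (fderiv ℝ (vv k B b x g₀ g₁) (s, t) (0, 1)) t :=
    HasFDerivAt.comp_hasDerivAt (f := fun t => (s, t)) t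
      (diff_vv (p := (s, t)) h0 h1 hp ht).hasFDerivAt
      ((hasDerivAt_const t s).prodMk (hasDerivAt_id t))
  have g1 := f1.unique c1
  have g2 := f2.unique c2
  rw [g1, g2]
  ring

theorem uu_zero (t : ℝ) : uu k B b x g₀ g₁ (0, t) = igd k B b x g₀ t := by
  unfold uu ph ps
  rw [igd_eq, gam]
  simp only [sub_zero, one_mul, zero_mul, add_zero]

theorem uu_one (t : ℝ) : uu k B b x g₀ g₁ (1, t) = igd k B b x g₁ t := by
  unfold uu ph ps
  rw [igd_eq, gam]
  simp only [sub_self, one_mul, zero_mul, zero_add]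

theorem rect (h0 : Adm B b x g₀) (h1 : Adm B b x g₁) {e R : ℝ} (he : 0 < e) (hR : e ≤ R) :
    (∫ t in e..R, igd k B b x g₁ t) - ∫ t in e..R, igd k B b x g₀ t =
      (∫ s in (0 : ℝ)..1, vv k B b x g₀ g₁ (s, R)) - ∫ s in (0 : ℝ)..1, vv k B b x g₀ g₁ (s, e) := by
  have hmem : ∀ p : ℝ × ℝ, p ∈ uIcc (0 : ℝ) 1 ×ˢ uIcc e R → p.1 ∈ Icc (0 : ℝ) 1 ∧ 0 < p.2 := by
    intro p hp
    rw [uIcc_of_le zero_le_one, uIcc_of_le hR] at hp
    exact ⟨hp.1, he.trans_le hp.2.1⟩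
  have hsub : Ioo (min (0 : ℝ) 1) (max 0 1) ×ˢ Ioo (min e R) (max e R) \ ∅ ⊆
      uIcc (0 : ℝ) 1 ×ˢ uIcc e R := by
    rintro p ⟨⟨hp1, hp2⟩, -⟩
    exact ⟨⟨hp1.1.le, hp1.2.le⟩, ⟨hp2.1.le, hp2.2.le⟩⟩
  have key := integral2_divergence_prod_of_hasFDerivAt_off_countable
    (uu k B b x g₀ g₁) (fun p => -vv k B b x g₀ g₁ p)
    (fun p => fderiv ℝ (uu k B b x g₀ g₁) p) (fun p => -fderiv ℝ (vv k B b x g₀ g₁) p)
    0 e 1 R ∅ countable_empty
    (fun p hp => (diff_uu h0 h1 (hmem p hp).1 (hmem p hp).2).continuousAt.continuousWithinAt)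
    (fun p hp => (diff_vv h0 h1 (hmem p hp).1 (hmem p hp).2).neg.continuousAt.continuousWithinAt)
    (fun p hp => (diff_uu h0 h1 (hmem p (hsub hp)).1 (hmem p (hsub hp)).2).hasFDerivAt)
    (fun p hp => (diff_vv h0 h1 (hmem p (hsub hp)).1 (hmem p (hsub hp)).2).hasFDerivAt.neg)
    (by
      refine (integrableOn_zero (μ := volume) (s := uIcc (0 : ℝ) 1 ×ˢ uIcc e R)).congr_fun
        (fun p hp => ?_) (measurableSet_uIcc.prod measurableSet_uIcc)
      have := deriv_eq (k := k) h0 h1 (hmem p hp).1 (hmem p hp).2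
      show (0 : ℂ) = fderiv ℝ (uu k B b x g₀ g₁) p (1, 0) +
        (-fderiv ℝ (vv k B b x g₀ g₁) p) (0, 1)
      rw [_root_.neg_apply, ← this, add_neg_cancel])
  have hz : (∫ s in (0 : ℝ)..1, ∫ t in e..R, fderiv ℝ (uu k B b x g₀ g₁) (s, t) (1, 0) +
      (-fderiv ℝ (vv k B b x g₀ g₁) (s, t)) (0, 1)) = 0 := by
    rw [intervalIntegral.integral_congr (g := fun _ => (0 : ℂ))]
    · simp
    intro s hs
    show (∫ t in e..R, _) = (0 : ℂ)
    rw [intervalIntegral.integral_congr (g := fun _ => (0 : ℂ))]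
    · simp
    intro t ht
    have := deriv_eq (k := k) h0 h1 (hmem (s, t) ⟨hs, ht⟩).1 (hmem (s, t) ⟨hs, ht⟩).2
    show fderiv ℝ (uu k B b x g₀ g₁) (s, t) (1, 0) +
        (-fderiv ℝ (vv k B b x g₀ g₁) (s, t)) (0, 1) = 0
    rw [_root_.neg_apply, ← this, add_neg_cancel]
  rw [hz] at key
  simp only [uu_zero, uu_one, intervalIntegral.integral_neg] at key
  linear_combination -key

theorem vv_le {K₀ K₁ : ℝ} {s t : ℝ} (hs : s ∈ Icc (0 : ℝ) 1) (_ht : 0 ≤ t)
    (h0 : |g₀ t| ≤ K₀ * t) (h1 : |g₁ t| ≤ K₁ * t) {C : ℝ} (hC : 0 ≤ C)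
    (hbd : ∀ y : ℝ, |y| ≤ (K₀ + K₁) * t → ‖ff k B b (x + (t + y * I))‖ ≤ C) :
    ‖vv k B b x g₀ g₁ (s, t)‖ ≤ C * ((K₀ + K₁) * t) := by
  have hK0 : 0 ≤ K₀ * t := (abs_nonneg _).trans h0
  have hK1 : 0 ≤ K₁ * t := (abs_nonneg _).trans h1
  unfold vv
  rw [norm_mul]
  refine mul_le_mul (hbd ((1 - s) * g₀ t + s * g₁ t) ?_) ?_ (norm_nonneg _) hC
  · calc |(1 - s) * g₀ t + s * g₁ t| ≤ |(1 - s) * g₀ t| + |s * g₁ t| := abs_add_le _ _
      _ = (1 - s) * |g₀ t| + s * |g₁ t| := by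
        rw [abs_mul, abs_mul, abs_of_nonneg hs.1, abs_of_nonneg (sub_nonneg.2 hs.2)]
      _ ≤ (K₀ + K₁) * t := by nlinarith [hs.1, hs.2, abs_nonneg (g₀ t), abs_nonneg (g₁ t)]
  · unfold H931.hs
    rw [norm_mul, norm_I, mul_one, Complex.norm_real, Real.norm_eq_abs]
    calc |g₁ t - g₀ t| ≤ |g₁ t| + |g₀ t| := abs_sub _ _
      _ ≤ (K₀ + K₁) * t := by linarith

theorem integral_vv_le {t c : ℝ} (h : ∀ s ∈ Icc (0 : ℝ) 1, ‖vv k B b x g₀ g₁ (s, t)‖ ≤ c) :
    ‖∫ s in (0 : ℝ)..1, vv k B b x g₀ g₁ (s, t)‖ ≤ c := by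
  have := intervalIntegral.norm_integral_le_of_norm_le_const (a := 0) (b := 1)
    (f := fun s => vv k B b x g₀ g₁ (s, t)) (C := c) fun s hs => by
      rw [uIoc_of_le zero_le_one] at hs
      exact h s ⟨hs.1.le, hs.2⟩
  simpa using this

theorem PG_eq (hk : k ≤ 1) (hb : Function.Injective b) (h0 : Adm B b x g₀) (h1 : Adm B b x g₁) :
    PG k B b x g₀ = PG k B b x g₁ := by
  obtain ⟨K₀, hK₀, -, hg₀⟩ := path_le h0.1
  obtain ⟨K₁, hK₁, -, hg₁⟩ := path_le h1.1
  obtain ⟨δ, hδ, hδ1, C, hC, hsm⟩ := small hb x (add_nonneg hK₀ hK₁) k B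
  obtain ⟨R, hR, C', hC', hl⟩ := large b x (add_nonneg hK₀ hK₁) hk B
  -- exhaustion
  set S : ℕ → Set ℝ := fun n => Ioc (1 / ((n : ℝ) + 1)) ((n : ℝ) + 1) with hS
  have hpos : ∀ n : ℕ, (0 : ℝ) < 1 / ((n : ℝ) + 1) := fun n => by positivity
  have hmono : Monotone S := by
    intro m n hmn
    have hmn' : (m : ℝ) ≤ n := by exact_mod_cast hmn
    refine Ioc_subset_Ioc ?_ ?_
    · exact one_div_le_one_div_of_le (by positivity) (by linarith)
    · linarith
  have hun : ⋃ n, S n = Ioi (0 : ℝ) := by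
    ext t
    rw [mem_iUnion]
    constructor
    · rintro ⟨n, hn⟩
      exact (hpos n).trans hn.1
    · intro ht
      have ht0 : (0 : ℝ) < t := ht
      obtain ⟨n, hn⟩ := exists_nat_gt (max t (1 / t))
      refine ⟨n, ?_, ?_⟩
      · rw [div_lt_iff₀ (by positivity)]
        have h3 : 1 / t < n := (le_max_right _ _).trans_lt hn
        rw [div_lt_iff₀ ht0] at h3
        nlinarith
      · exact ((le_max_left _ _).trans hn.le).trans (by linarith)
  have hlim : ∀ g, Adm B b x g → Tendsto (fun n : ℕ =>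
      ∫ t in (1 / ((n : ℝ) + 1))..((n : ℝ) + 1), igd k B b x g t) atTop
        (𝓝 (∫ t in Ioi (0 : ℝ), igd k B b x g t)) := by
    intro g hg
    have h2 := tendsto_setIntegral_of_monotone (μ := volume) (f := igd k B b x g) (s := S)
      (fun n => measurableSet_Ioc) hmono (by rw [hun]; exact integrableOn_igd hk hb hg)
    rw [hun] at h2
    refine h2.congr fun n => ?_
    rw [intervalIntegral.integral_of_le]
    rw [div_le_iff₀ (by positivity)]
    have : (0 : ℝ) ≤ n := Nat.cast_nonneg n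
    nlinarith
  have hd := (hlim g₁ h1).sub (hlim g₀ h0)
  have hz : Tendsto (fun n : ℕ =>
      (∫ t in (1 / ((n : ℝ) + 1))..((n : ℝ) + 1), igd k B b x g₁ t) -
        ∫ t in (1 / ((n : ℝ) + 1))..((n : ℝ) + 1), igd k B b x g₀ t) atTop (𝓝 0) := by
    rw [tendsto_zero_iff_norm_tendsto_zero]
    -- majorant
    have hnat : Tendsto (fun n : ℕ => (n : ℝ) + 1) atTop atTop :=
      tendsto_atTop_add_const_right _ _ tendsto_natCast_atTop_atTop
    have hinv : Tendsto (fun n : ℕ => 1 / ((n : ℝ) + 1)) atTop (𝓝 0) :=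
      tendsto_one_div_add_atTop_nhds_zero_nat
    have hmaj : Tendsto (fun n : ℕ => C' * (K₀ + K₁) * (1 / ((n : ℝ) + 1)) +
        C * (K₀ + K₁) * Real.sqrt (1 / ((n : ℝ) + 1))) atTop (𝓝 0) := by
      have e1 := hinv.const_mul (C' * (K₀ + K₁))
      have e2 := ((Real.continuous_sqrt.tendsto 0).comp hinv).const_mul (C * (K₀ + K₁))
      have e3 := e1.add e2
      rw [Real.sqrt_zero, mul_zero, mul_zero, add_zero] at e3
      exact e3
    refine squeeze_zero' (Eventually.of_forall fun n => norm_nonneg _) ?_ hmaj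
    have hev1 : ∀ᶠ n : ℕ in atTop, 1 / ((n : ℝ) + 1) ≤ δ :=
      (hinv.eventually (gt_mem_nhds hδ)).mono fun n hn => hn.le
    filter_upwards [hev1, hnat.eventually_ge_atTop R] with n hn1 hn2
    have hn0 : (0 : ℝ) < (n : ℝ) + 1 := by positivity
    have hle : 1 / ((n : ℝ) + 1) ≤ (n : ℝ) + 1 := by
      rw [div_le_iff₀ hn0]
      have : (0 : ℝ) ≤ n := Nat.cast_nonneg n
      nlinarith
    rw [rect h0 h1 (hpos n) hle]
    refine (norm_sub_le _ _).trans (add_le_add ?_ ?_)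
    · refine integral_vv_le fun s hs => ?_
      refine (vv_le hs hn0.le (hg₀ _ hn0.le) (hg₁ _ hn0.le) (C := C' / ((n : ℝ) + 1) ^ 2)
        (by positivity) fun y hy => hl _ hn2 y hy).trans (le_of_eq ?_)
      field_simp
    · refine integral_vv_le fun s hs => ?_
      set e : ℝ := 1 / ((n : ℝ) + 1) with he
      have he0 : 0 < e := hpos n
      refine (vv_le hs he0.le (hg₀ _ he0.le) (hg₁ _ he0.le) (C := C / Real.sqrt e)
        (by positivity) fun y hy => hsm _ ⟨he0, hn1⟩ y hy).trans (le_of_eq ?_)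
      have hse : 0 < Real.sqrt e := Real.sqrt_pos.2 he0
      have h3 : e = Real.sqrt e * Real.sqrt e := (Real.mul_self_sqrt he0.le).symm
      calc C / Real.sqrt e * ((K₀ + K₁) * e)
          = C / Real.sqrt e * ((K₀ + K₁) * (Real.sqrt e * Real.sqrt e)) := by rw [← h3]
        _ = C * (K₀ + K₁) * Real.sqrt e := by field_simp
  have := tendsto_nhds_unique hd hz
  unfold PG
  rw [sub_eq_zero.1 this]

end Homotopy

/-- **Row GP-INV.** -/
theorem stmINV : StmINV := fun _ _ _ _ hk hb =>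
  ⟨fun _ h => integrableOn_igd hk hb h, fun _ _ h0 h1 => PG_eq hk hb h0 h1⟩

end

end Vale.Agent.P273.H931
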