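import Mathlib

/-!
The full simplex of dimension `n - 1`, cut according to the largest of its `n` barycentric
coordinates, the largest coordinate being eliminated: the sum of the volumes is `y ^ (n-1) / (n-1)!`.
-/

noncomputable section

namespace Vale.Agent.P273.H931

open MeasureTheory Set
open scoped ENNReal Nat Pointwise

set_option linter.unusedSectionVars false

variable {G : Type} [Fintype G] [DecidableEq G]

/-- The region where the eliminated coordinate `y - ∑ v` is the largest one. -/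
def Sx (l : G) (y : ℝ) : Set ({g : G // g ≠ l} → ℝ) :=
  {v | (∀ g, 0 ≤ v g) ∧ ∀ g, v g ≤ y - ∑ g, v g}

theorem measurableSet_Sx (l : G) (y : ℝ) : MeasurableSet (Sx l y) := by
  have h1 : IsClosed {v : {g : G // g ≠ l} → ℝ | ∀ g, 0 ≤ v g} := by
    have : {v : {g : G // g ≠ l} → ℝ | ∀ g, 0 ≤ v g} = ⋂ g, {v | 0 ≤ v g} := by
      ext v; simp
    rw [this]
    exact isClosed_iInter fun g => isClosed_le continuous_const (continuous_apply g)
  have h2 : IsClosed {v : {g : G // g ≠ l} → ℝ | ∀ g, v g ≤ y - ∑ g, v g} := by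
    have : {v : {g : G // g ≠ l} → ℝ | ∀ g, v g ≤ y - ∑ g, v g}
        = ⋂ g, {v | v g ≤ y - ∑ g, v g} := by
      ext v; simp
    rw [this]
    refine isClosed_iInter fun g => isClosed_le (continuous_apply g) ?_
    exact continuous_const.sub (continuous_finsetSum _ fun i _ => continuous_apply i)
  exact (h1.inter h2).measurableSet

/-- The point with free coordinates `v` and sum of coordinates `s`. -/
def Ph (l : G) (s : ℝ) (v : {g : G // g ≠ l} → ℝ) (g : G) : ℝ :=
  if h : g ≠ l then v ⟨g, h⟩ else s - ∑ i, v i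

theorem Ph_self (l : G) (s : ℝ) (v : {g : G // g ≠ l} → ℝ) : Ph l s v l = s - ∑ i, v i := by
  simp [Ph]

theorem Ph_ne (l : G) (s : ℝ) (v : {g : G // g ≠ l} → ℝ) (g : {g : G // g ≠ l}) :
    Ph l s v g = v g := by
  unfold Ph
  rw [dif_pos g.2]

theorem sum_Ph (l : G) (s : ℝ) (v : {g : G // g ≠ l} → ℝ) : ∑ g, Ph l s v g = s := by
  rw [Fintype.sum_eq_add_sum_subtype_ne _ l, Ph_self]
  simp only [Ph_ne]
  ring

theorem measurable_Ph (l : G) :
    Measurable fun u : ℝ × ({g : G // g ≠ l} → ℝ) => Ph l u.1 u.2 := by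
  refine measurable_pi_lambda _ fun g => ?_
  by_cases h : g ≠ l
  · have : (fun u : ℝ × ({g : G // g ≠ l} → ℝ) => Ph l u.1 u.2 g) = fun u => u.2 ⟨g, h⟩ := by
      funext u; exact Ph_ne l u.1 u.2 ⟨g, h⟩
    rw [this]
    exact (measurable_pi_apply _).comp measurable_snd
  · have : (fun u : ℝ × ({g : G // g ≠ l} → ℝ) => Ph l u.1 u.2 g) = fun u => u.1 - ∑ i, u.2 i := by
      funext u
      unfold Ph
      rw [dif_neg h]
    rw [this]
    refine measurable_fst.sub ?_
    exact Finset.measurable_fun_sum _ fun i _ => (measurable_pi_apply i).comp measurable_snd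

theorem lintegral_unique {ι : Type} [i1 : Fintype ι] [Unique ι] (H : (ι → ℝ) → ℝ≥0∞)
    (hH : Measurable H) : ∫⁻ t, H t = ∫⁻ t : ℝ, H (fun _ => t) := by
  obtain rfl : i1 = Unique.fintype := Subsingleton.elim _ _
  exact ((volume_preserving_funUnique ι ℝ).symm.lintegral_comp hH).symm

/-- Integration over the free coordinates and the sum of all coordinates. -/
theorem lintegral_split (l : G) (F : (G → ℝ) → ℝ≥0∞) (hF : Measurable F) :
    ∫⁻ w, F w = ∫⁻ s : ℝ, ∫⁻ v : {g : G // g ≠ l} → ℝ, F (Ph l s v) := by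
  have : Unique {g : G // ¬ g ≠ l} := ⟨⟨⟨l, by simp⟩⟩, fun g => Subtype.ext (by
    have := g.2
    push Not at this
    exact this)⟩
  set e := MeasurableEquiv.piEquivPiSubtypeProd (fun _ : G => ℝ) (fun g => g ≠ l) with he
  have h1 : ∫⁻ z, F (e.symm z) = ∫⁻ w, F w := (volume_preserving_piEquivPiSubtypeProd
    (fun _ : G => ℝ) (fun g => g ≠ l)).symm.lintegral_comp hF
  rw [← h1, Measure.volume_eq_prod, lintegral_prod (fun z => F (e.symm z))
    (hF.comp e.symm.measurable).aemeasurable]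
  have h2 : ∀ v : {g : G // g ≠ l} → ℝ, ∫⁻ t : {g : G // ¬ g ≠ l} → ℝ, F (e.symm (v, t))
      = ∫⁻ s : ℝ, F (Ph l s v) := by
    intro v
    have hm : Measurable fun t : {g : G // ¬ g ≠ l} → ℝ => F (e.symm (v, t)) :=
      hF.comp (e.symm.measurable.comp (measurable_const.prodMk measurable_id))
    rw [lintegral_unique _ hm,
      ← lintegral_sub_right_eq_self (fun s : ℝ => F (e.symm (v, fun _ => s))) (∑ i, v i)]
    refine lintegral_congr fun s => ?_
    rfl
  rw [show (∫⁻ v : {g : G // g ≠ l} → ℝ, ∫⁻ t : {g : G // ¬ g ≠ l} → ℝ, F (e.symm (v, t)))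
      = ∫⁻ v : {g : G // g ≠ l} → ℝ, ∫⁻ s : ℝ, F (Ph l s v) from lintegral_congr h2]
  exact (lintegral_lintegral_swap
    (f := fun (s : ℝ) (v : {g : G // g ≠ l} → ℝ) => F (Ph l s v))
    (hF.comp (measurable_Ph l)).aemeasurable).symm

/-- The part of the orthant where the coordinate `l` is the largest one. -/
def Pa (l : G) : Set (G → ℝ) := {w | (∀ g, 0 ≤ w g) ∧ ∀ g, w g ≤ w l}

theorem measurableSet_Pa (l : G) : MeasurableSet (Pa l) := by
  have h1 : IsClosed {w : G → ℝ | ∀ g, 0 ≤ w g} := by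
    have : {w : G → ℝ | ∀ g, 0 ≤ w g} = ⋂ g, {w | 0 ≤ w g} := by
      ext v; simp
    rw [this]
    exact isClosed_iInter fun g => isClosed_le continuous_const (continuous_apply g)
  have h2 : IsClosed {w : G → ℝ | ∀ g, w g ≤ w l} := by
    have : {w : G → ℝ | ∀ g, w g ≤ w l} = ⋂ g, {w | w g ≤ w l} := by
      ext v; simp
    rw [this]
    exact isClosed_iInter fun g => isClosed_le (continuous_apply g) (continuous_apply l)
  exact (h1.inter h2).measurableSet

theorem Ph_mem_Pa (l : G) {s : ℝ} (hs : 0 ≤ s) (v : {g : G // g ≠ l} → ℝ) :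
    Ph l s v ∈ Pa l ↔ v ∈ Sx l s := by
  constructor
  · rintro ⟨h1, h2⟩
    refine ⟨fun g => ?_, fun g => ?_⟩
    · have := h1 g
      rwa [Ph_ne] at this
    · have := h2 g
      rwa [Ph_ne, Ph_self] at this
  · rintro ⟨h1, h2⟩
    have h3 : 0 ≤ s - ∑ i, v i := by
      rcases isEmpty_or_nonempty {g : G // g ≠ l} with h | ⟨⟨g⟩⟩
      · simpa using hs
      · exact (h1 g).trans (h2 g)
    refine ⟨fun g => ?_, fun g => ?_⟩
    · by_cases h : g = l
      · rw [h, Ph_self]; exact h3
      · have := h1 ⟨g, h⟩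
        rwa [← Ph_ne l s v ⟨g, h⟩] at this
    · rw [Ph_self]
      by_cases h : g = l
      · rw [h, Ph_self]
      · have := h2 ⟨g, h⟩
        rwa [← Ph_ne l s v ⟨g, h⟩] at this

theorem Ph_not_mem_Pa (l : G) {s : ℝ} (hs : s < 0) (v : {g : G // g ≠ l} → ℝ) :
    Ph l s v ∉ Pa l := by
  rintro ⟨h1, -⟩
  have := Finset.sum_nonneg fun g (_ : g ∈ Finset.univ) => h1 g
  rw [sum_Ph] at this
  linarith

/-- The dilation. -/
theorem Sx_eq_smul (l : G) {y : ℝ} (hy : 0 ≤ y) : Sx l y = y • Sx l 1 := by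
  rcases hy.eq_or_lt with rfl | hy
  · have h0 : (0 : {g : G // g ≠ l} → ℝ) ∈ Sx l 1 := by
      refine ⟨fun g => le_rfl, fun g => ?_⟩
      simp
    rw [Set.zero_smul_set ⟨0, h0⟩]
    ext v
    constructor
    · rintro ⟨h1, h2⟩
      have h3 : v = 0 := by
        funext g
        refine le_antisymm ?_ (h1 g)
        have := h2 g
        have h4 := Finset.sum_nonneg fun g (_ : g ∈ Finset.univ) => h1 g
        rw [Pi.zero_apply]
        linarith
      rw [h3]; exact Set.mem_singleton _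
    · intro h
      rw [Set.mem_zero.1 h]
      refine ⟨fun g => le_rfl, fun g => ?_⟩
      simp
  · ext v
    rw [Set.mem_smul_set_iff_inv_smul_mem₀ hy.ne']
    constructor
    · rintro ⟨h1, h2⟩
      refine ⟨fun g => ?_, fun g => ?_⟩
      · exact mul_nonneg (inv_nonneg.2 hy.le) (h1 g)
      · simp only [Pi.smul_apply, smul_eq_mul, ← Finset.mul_sum]
        have := mul_le_mul_of_nonneg_left (h2 g) (inv_nonneg.2 hy.le)
        rwa [mul_sub, inv_mul_cancel₀ hy.ne'] at this
    · rintro ⟨h1, h2⟩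
      refine ⟨fun g => ?_, fun g => ?_⟩
      · have := mul_nonneg hy.le (h1 g)
        simpa only [Pi.smul_apply, smul_eq_mul, mul_inv_cancel_left₀ hy.ne'] using this
      · have := mul_le_mul_of_nonneg_left (h2 g) hy.le
        simp only [Pi.smul_apply, smul_eq_mul, ← Finset.mul_sum] at this
        rwa [mul_sub, mul_inv_cancel_left₀ hy.ne', mul_inv_cancel_left₀ hy.ne', mul_one] at this

theorem card_ne (l : G) : Fintype.card {g : G // g ≠ l} = Fintype.card G - 1 := by
  simp [Fintype.card_subtype_compl (fun g : G => g = l)]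

theorem volume_Sx (l : G) {y : ℝ} (hy : 0 ≤ y) :
    volume (Sx l y) = ENNReal.ofReal (y ^ (Fintype.card G - 1)) * volume (Sx l 1) := by
  rw [Sx_eq_smul l hy, Measure.addHaar_smul, Module.finrank_fintype_fun_eq_card, card_ne,
    abs_of_nonneg (pow_nonneg hy _)]

/-- The Gamma integral. -/
theorem lintegral_gamma (n : ℕ) :
    ∫⁻ s in Ici (0 : ℝ), ENNReal.ofReal (Real.exp (-s)) * ENNReal.ofReal (s ^ n)
      = ENNReal.ofReal (n ! : ℝ) := by
  have h := Real.GammaIntegral_convergent (s := (n + 1 : ℝ)) (by positivity)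
  rw [← restrict_Ioi_eq_restrict_Ici, ← Real.Gamma_nat_eq_factorial,
    Real.Gamma_eq_integral (by positivity)]
  rw [ofReal_integral_eq_lintegral_ofReal h]
  · refine setLIntegral_congr_fun measurableSet_Ioi fun s hs => ?_
    rw [← ENNReal.ofReal_mul (Real.exp_nonneg _)]
    simp
  · refine (ae_restrict_iff' measurableSet_Ioi).2 (ae_of_all _ fun s hs => ?_)
    exact mul_nonneg (Real.exp_nonneg _) (Real.rpow_nonneg (le_of_lt hs) _)

theorem lintegral_Pa (l : G) :
    ∫⁻ w in Pa l, ENNReal.ofReal (Real.exp (-∑ g, w g))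
      = volume (Sx l 1) * ENNReal.ofReal ((Fintype.card G - 1)! : ℝ) := by
  have hm : Measurable fun w : G → ℝ => ENNReal.ofReal (Real.exp (-∑ g, w g)) :=
    (Real.measurable_exp.comp (Finset.measurable_fun_sum _ fun i _ =>
      measurable_pi_apply i).neg).ennreal_ofReal
  rw [← lintegral_indicator (measurableSet_Pa l),
    lintegral_split l _ (hm.indicator (measurableSet_Pa l)),
    ← lintegral_gamma, ← lintegral_const_mul _ (by fun_prop),
    ← lintegral_indicator measurableSet_Ici]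
  refine lintegral_congr fun s => ?_
  by_cases hs : 0 ≤ s
  · rw [indicator_of_mem (mem_Ici.2 hs)]
    have : ∀ v : {g : G // g ≠ l} → ℝ,
        (Pa l).indicator (fun w => ENNReal.ofReal (Real.exp (-∑ g, w g))) (Ph l s v)
        = (Sx l s).indicator (fun _ => ENNReal.ofReal (Real.exp (-s))) v := by
      intro v
      by_cases h : v ∈ Sx l s
      · rw [indicator_of_mem h, indicator_of_mem ((Ph_mem_Pa l hs v).2 h), sum_Ph]
      · rw [indicator_of_notMem h, indicator_of_notMem (fun h' => h ((Ph_mem_Pa l hs v).1 h'))]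
    rw [lintegral_congr this, lintegral_indicator (measurableSet_Sx l s), setLIntegral_const,
      volume_Sx l hs]
    ring
  · rw [indicator_of_notMem (fun h => hs (mem_Ici.1 h))]
    have : ∀ v : {g : G // g ≠ l} → ℝ,
        (Pa l).indicator (fun w => ENNReal.ofReal (Real.exp (-∑ g, w g))) (Ph l s v) = 0 :=
      fun v => indicator_of_notMem (Ph_not_mem_Pa l (not_le.1 hs) v) _
    rw [lintegral_congr this, lintegral_zero]

theorem iUnion_Pa [Nonempty G] : ⋃ l : G, Pa l = {w : G → ℝ | ∀ g, 0 ≤ w g} := by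
  ext w
  rw [mem_iUnion]
  constructor
  · rintro ⟨l, h, -⟩
    exact h
  · intro h
    obtain ⟨l, -, hl⟩ := Finset.exists_max_image (Finset.univ : Finset G) w Finset.univ_nonempty
    exact ⟨l, h, fun g => hl g (Finset.mem_univ g)⟩

theorem aedisjoint_Pa : Pairwise (Function.onFun (AEDisjoint (volume : Measure (G → ℝ))) Pa) := by
  intro l l' hne
  have h1 : Pa l ∩ Pa l' ⊆ (LinearMap.ker
      ((LinearMap.proj l : (G → ℝ) →ₗ[ℝ] ℝ) - LinearMap.proj l') : Submodule ℝ (G → ℝ)) := by
    rintro w ⟨h1, h2⟩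
    rw [SetLike.mem_coe, LinearMap.mem_ker]
    have := le_antisymm (h2.2 l) (h1.2 l')
    simp [this]
  refine measure_mono_null h1 (Measure.addHaar_submodule _ _ fun h => ?_)
  have h2 : (Pi.single l 1 : G → ℝ) ∈ LinearMap.ker
      ((LinearMap.proj l : (G → ℝ) →ₗ[ℝ] ℝ) - LinearMap.proj l') := by
    rw [h]; exact Submodule.mem_top
  rw [LinearMap.mem_ker] at h2
  simp [Pi.single_eq_of_ne hne.symm] at h2

theorem lintegral_orthant :
    ∫⁻ w in {w : G → ℝ | ∀ g, 0 ≤ w g}, ENNReal.ofReal (Real.exp (-∑ g, w g)) = 1 := by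
  have hms : MeasurableSet {w : G → ℝ | ∀ g, 0 ≤ w g} := by
    have : {w : G → ℝ | ∀ g, 0 ≤ w g} = ⋂ g, {w | 0 ≤ w g} := by
      ext v; simp
    rw [this]
    exact (isClosed_iInter fun g =>
      isClosed_le continuous_const (continuous_apply g)).measurableSet
  rw [← lintegral_indicator hms]
  set f : ℝ → ℝ := (Ici (0 : ℝ)).indicator fun t => Real.exp (-t) with hf
  have hi : Integrable f := by
    rw [hf, integrable_indicator_iff measurableSet_Ici, integrableOn_Ici_iff_integrableOn_Ioi]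
    exact integrableOn_exp_neg_Ioi 0
  have h1 : ∫ t, f t = 1 := by
    rw [hf, integral_indicator measurableSet_Ici, integral_Ici_eq_integral_Ioi,
      integral_exp_neg_Ioi_zero]
  have h2 : ∫ w : G → ℝ, ∏ g, f (w g) = 1 := by
    rw [integral_fintype_prod_volume_eq_pow, h1, one_pow]
  have h3 : Integrable fun w : G → ℝ => ∏ g, f (w g) := Integrable.fintype_prod fun _ => hi
  have h4 : ∀ w : G → ℝ, ({w : G → ℝ | ∀ g, 0 ≤ w g}).indicator
      (fun w => ENNReal.ofReal (Real.exp (-∑ g, w g))) w = ENNReal.ofReal (∏ g, f (w g)) := by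
    intro w
    by_cases h : ∀ g, 0 ≤ w g
    · rw [indicator_of_mem (by exact h)]
      congr 1
      rw [← Finset.sum_neg_distrib, Real.exp_sum]
      refine Finset.prod_congr rfl fun g _ => ?_
      rw [hf, indicator_of_mem (mem_Ici.2 (h g))]
    · rw [indicator_of_notMem (by exact h)]
      push Not at h
      obtain ⟨g, hg⟩ := h
      rw [Finset.prod_eq_zero (Finset.mem_univ g), ENNReal.ofReal_zero]
      rw [hf, indicator_of_notMem (fun h => absurd (mem_Ici.1 h) (not_le.2 hg))]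
  rw [lintegral_congr h4, ← ofReal_integral_eq_lintegral_ofReal h3, h2, ENNReal.ofReal_one]
  refine ae_of_all _ fun w => Finset.prod_nonneg fun g _ => ?_
  rw [hf]
  exact indicator_nonneg (fun _ _ => Real.exp_nonneg _) _

theorem sum_volume_one [Nonempty G] :
    ∑ l : G, volume (Sx l 1) = (ENNReal.ofReal ((Fintype.card G - 1)! : ℝ))⁻¹ := by
  have h := lintegral_orthant (G := G)
  rw [← iUnion_Pa, lintegral_iUnion₀ (fun l => (measurableSet_Pa l).nullMeasurableSet)
    aedisjoint_Pa, tsum_fintype] at h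
  simp only [lintegral_Pa] at h
  rw [← Finset.sum_mul] at h
  exact ENNReal.eq_inv_of_mul_eq_one_left h

/-- **The full simplex, cut by its largest coordinate** (`ENNReal` form). -/
theorem sum_volume_ennreal [Nonempty G] (y : ℝ) (hy : 0 ≤ y) :
    ∑ l : G, volume {v : {g : G // g ≠ l} → ℝ | (∀ g, 0 ≤ v g) ∧ ∀ g, v g ≤ y - ∑ g, v g}
      = ENNReal.ofReal (y ^ (Fintype.card G - 1) / ((Fintype.card G - 1)! : ℝ)) := by
  have h : ∀ l : G, volume {v : {g : G // g ≠ l} → ℝ | (∀ g, 0 ≤ v g) ∧ ∀ g, v g ≤ y - ∑ g, v g}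
      = ENNReal.ofReal (y ^ (Fintype.card G - 1)) * volume (Sx l 1) := fun l => volume_Sx l hy
  rw [Finset.sum_congr rfl fun l _ => h l, ← Finset.mul_sum, sum_volume_one,
    ENNReal.ofReal_div_of_pos (by positivity), ENNReal.div_eq_inv_mul, mul_comm]

theorem volume_Sx_ne_top [Nonempty G] (l : G) {y : ℝ} (hy : 0 ≤ y) :
    volume {v : {g : G // g ≠ l} → ℝ | (∀ g, 0 ≤ v g) ∧ ∀ g, v g ≤ y - ∑ g, v g} ≠ ⊤ := by
  intro h
  have h1 := sum_volume_ennreal (G := G) y hy
  have h2 := Finset.single_le_sum (f := fun l : G =>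
    volume {v : {g : G // g ≠ l} → ℝ | (∀ g, 0 ≤ v g) ∧ ∀ g, v g ≤ y - ∑ g, v g})
    (fun _ _ => bot_le) (Finset.mem_univ l)
  rw [h1] at h2
  simp only [h] at h2
  exact absurd h2 (not_le.2 ENNReal.ofReal_lt_top)

/-- **The full simplex, cut by its largest coordinate.** -/
theorem sum_volume_simplex [Nonempty G] (y : ℝ) (hy : 0 ≤ y) :
    ∑ l : G, (volume {v : {g : G // g ≠ l} → ℝ |
        (∀ g, 0 ≤ v g) ∧ (∀ g, v g ≤ y - ∑ g, v g)}).toReal
      = y ^ (Fintype.card G - 1) / ((Fintype.card G - 1)! : ℝ) := by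
  rw [← ENNReal.toReal_sum fun l _ => volume_Sx_ne_top l hy, sum_volume_ennreal y hy,
    ENNReal.toReal_ofReal (by positivity)]

end Vale.Agent.P273.H931

end
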